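import Mathlib
import Vale.Agent.Lib.P243.CapMain
import Vale.Agent.Lib.P243.R3.Defs

/-!
# P243 R3, pool job J12 (helper95): the equality case in the model

M3m_model_star_of: if a chord from (z0, o) to (z0 + l, o) of a compact convex set K with
nonempty interior in the model space R x (R x R) attains equality l * area = 3 * vol, then
every boundary point x of K is joined to one of the two chord ends by a segment lying in the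
boundary. The statements of the jobs J8 (hlt), J9 (hgain), J10 (hbot, htop), J11 (hlat) are
taken as hypotheses.
-/

open MeasureTheory Set Vale.Agent.Lib.P243

namespace Vale.Agent.Lib.P243.R3

/-- the projection of a set with nonempty interior is not a null set -/
theorem M3m_proj_ne_zero {K : Set (ℝ × (ℝ × ℝ))} (hint : (interior K).Nonempty) :
    volume (Prod.snd '' K) ≠ 0 := by
  intro h
  have hsub : K ⊆ (univ : Set ℝ) ×ˢ (Prod.snd '' K) :=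
    fun y hy => ⟨mem_univ _, ⟨y, hy, rfl⟩⟩
  have h0' : volume ((univ : Set ℝ) ×ˢ (Prod.snd '' K)) = 0 := by
    rw [Measure.volume_eq_prod, Measure.prod_prod, h, mul_zero]
  have hK0 : volume K = 0 := measure_mono_null hsub h0'
  have hpos : 0 < volume (interior K) := isOpen_interior.measure_pos volume hint
  have hle : volume (interior K) ≤ volume K := measure_mono interior_subset
  rw [hK0] at hle
  exact absurd hpos (not_lt.mpr hle)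

/-- J12. The equality case in the model, from J8 to J11 as hypotheses. -/
theorem M3m_model_star_of
    (hlt : ∀ (K : Set (ℝ × (ℝ × ℝ))), IsCompact K → Convex ℝ K → ∀ (z0 l : ℝ) (o : ℝ × ℝ),
      0 < l → (z0, o) ∈ K → (z0 + l, o) ∈ K → volume (Prod.snd '' K) ≠ 0 →
      (∃ y ∈ Prod.snd '' K, ∃ t : ℝ, 0 < t ∧ t < Cap.len K y ∧
        (l ≤ t ∨ ∀ q ∈ Prod.snd '' K, y ≠ o + (1 - t / l) • (q - o))) →
      ENNReal.ofReal l * volume (Prod.snd '' K) < 3 * volume K)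
    (hgain : ∀ (K : Set (ℝ × (ℝ × ℝ))), IsCompact K → Convex ℝ K → ∀ (z0 l : ℝ) (o : ℝ × ℝ),
      0 < l → (z0, o) ∈ K → (z0 + l, o) ∈ K → ∀ ξ ∈ Prod.snd '' K, ∀ s : ℝ, 0 ≤ s → s ≤ 1 →
      (1 - s) * l + s * Cap.len K ξ < Cap.len K (o + s • (ξ - o)) →
      ∃ y ∈ Prod.snd '' K, ∃ t : ℝ, 0 < t ∧ t < Cap.len K y ∧
        (l ≤ t ∨ ∀ q ∈ Prod.snd '' K, y ≠ o + (1 - t / l) • (q - o)))
    (hbot : ∀ (K : Set (ℝ × (ℝ × ℝ))), IsCompact K → Convex ℝ K → ∀ (z0 l : ℝ) (o : ℝ × ℝ),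
      0 < l → (z0, o) ∈ K → (z0 + l, o) ∈ K → ∀ (ζ : ℝ) (ξ : ℝ × ℝ), (ζ, ξ) ∈ K →
      (∀ ζ' : ℝ, ζ' < ζ → (ζ', ξ) ∉ K) → ∀ s : ℝ, 0 ≤ s → s ≤ 1 →
      (1 - s) • ((z0, o) : ℝ × (ℝ × ℝ)) + s • ((ζ, ξ) : ℝ × (ℝ × ℝ)) ∈ interior K →
      (1 - s) * l + s * Cap.len K ξ < Cap.len K (o + s • (ξ - o)))
    (htop : ∀ (K : Set (ℝ × (ℝ × ℝ))), IsCompact K → Convex ℝ K → ∀ (z0 l : ℝ) (o : ℝ × ℝ),
      0 < l → (z0, o) ∈ K → (z0 + l, o) ∈ K → ∀ (ζ : ℝ) (ξ : ℝ × ℝ), (ζ, ξ) ∈ K →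
      (∀ ζ' : ℝ, ζ < ζ' → (ζ', ξ) ∉ K) → ∀ s : ℝ, 0 ≤ s → s ≤ 1 →
      (1 - s) • ((z0 + l, o) : ℝ × (ℝ × ℝ)) + s • ((ζ, ξ) : ℝ × (ℝ × ℝ)) ∈ interior K →
      (1 - s) * l + s * Cap.len K ξ < Cap.len K (o + s • (ξ - o)))
    (hlat : ∀ (K : Set (ℝ × (ℝ × ℝ))), IsCompact K → Convex ℝ K → ∀ (z0 l : ℝ) (o : ℝ × ℝ),
      0 < l → (z0, o) ∈ K → (z0 + l, o) ∈ K → ∀ (ζ ζ1 ζ2 : ℝ) (ξ : ℝ × ℝ),
      (ζ, ξ) ∈ frontier K → ζ1 < ζ → (ζ1, ξ) ∈ K → ζ < ζ2 → (ζ2, ξ) ∈ K →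
      ∀ s : ℝ, 0 ≤ s → s ≤ 1 →
      (1 - s) • ((z0, o) : ℝ × (ℝ × ℝ)) + s • ((ζ, ξ) : ℝ × (ℝ × ℝ)) ∈ interior K →
      ∃ y ∈ Prod.snd '' K, ∃ t : ℝ, 0 < t ∧ t < Cap.len K y ∧
        (l ≤ t ∨ ∀ q ∈ Prod.snd '' K, y ≠ o + (1 - t / l) • (q - o)))
    {K : Set (ℝ × (ℝ × ℝ))} (hK : IsCompact K) (hc : Convex ℝ K)
    (hint : (interior K).Nonempty) {z0 l : ℝ} {o : ℝ × ℝ} (hl : 0 < l) (h0 : (z0, o) ∈ K)
    (h1 : (z0 + l, o) ∈ K)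
    (heq : ENNReal.ofReal l * volume (Prod.snd '' K) = 3 * volume K)
    {x : ℝ × (ℝ × ℝ)} (hx : x ∈ frontier K) :
    segment ℝ ((z0, o) : ℝ × (ℝ × ℝ)) x ⊆ frontier K ∨
      segment ℝ ((z0 + l, o) : ℝ × (ℝ × ℝ)) x ⊆ frontier K := by
  by_contra hcon
  obtain ⟨hA, hB⟩ := not_or.mp hcon
  rw [Set.not_subset] at hA hB
  obtain ⟨w0, hw0s, hw0⟩ := hA
  obtain ⟨w1, hw1s, hw1⟩ := hB
  have hfr : frontier K = K \ interior K := hK.isClosed.frontier_eq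
  have hxK : x ∈ K := by
    rw [hfr] at hx
    exact hx.1
  have hw0K : w0 ∈ K := hc.segment_subset h0 hxK hw0s
  have hw1K : w1 ∈ K := hc.segment_subset h1 hxK hw1s
  have hw0i : w0 ∈ interior K := by
    by_contra h
    exact hw0 (by rw [hfr]; exact ⟨hw0K, h⟩)
  have hw1i : w1 ∈ interior K := by
    by_contra h
    exact hw1 (by rw [hfr]; exact ⟨hw1K, h⟩)
  obtain ⟨ζ, ξ⟩ := x
  obtain ⟨a0, b0, ha0, hb0, hab0, rfl⟩ := hw0s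
  obtain ⟨a1, b1, ha1, hb1, hab1, rfl⟩ := hw1s
  obtain rfl : a0 = 1 - b0 := by linarith
  obtain rfl : a1 = 1 - b1 := by linarith
  have hb0le : b0 ≤ 1 := by linarith
  have hb1le : b1 ≤ 1 := by linarith
  have hP : volume (Prod.snd '' K) ≠ 0 := M3m_proj_ne_zero hint
  have hξ : ξ ∈ Prod.snd '' K := ⟨(ζ, ξ), hxK, rfl⟩
  by_cases hb : ∀ ζ' : ℝ, ζ' < ζ → (ζ', ξ) ∉ K
  · have h := hbot K hK hc z0 l o hl h0 h1 ζ ξ hxK hb b0 hb0 hb0le hw0i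
    have hg := hgain K hK hc z0 l o hl h0 h1 ξ hξ b0 hb0 hb0le h
    have hstrict := hlt K hK hc z0 l o hl h0 h1 hP hg
    exact absurd heq (ne_of_lt hstrict)
  · by_cases ht : ∀ ζ' : ℝ, ζ < ζ' → (ζ', ξ) ∉ K
    · have h := htop K hK hc z0 l o hl h0 h1 ζ ξ hxK ht b1 hb1 hb1le hw1i
      have hg := hgain K hK hc z0 l o hl h0 h1 ξ hξ b1 hb1 hb1le h
      have hstrict := hlt K hK hc z0 l o hl h0 h1 hP hg
      exact absurd heq (ne_of_lt hstrict)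
    · obtain ⟨ζ1, hb1'⟩ := not_forall.mp hb
      obtain ⟨hζ1, hx1n⟩ := Classical.not_imp.mp hb1'
      have hx1 : (ζ1, ξ) ∈ K := not_not.mp hx1n
      obtain ⟨ζ2, ht1'⟩ := not_forall.mp ht
      obtain ⟨hζ2, hx2n⟩ := Classical.not_imp.mp ht1'
      have hx2 : (ζ2, ξ) ∈ K := not_not.mp hx2n
      have hg := hlat K hK hc z0 l o hl h0 h1 ζ ζ1 ζ2 ξ hx hζ1 hx1 hζ2 hx2 b0 hb0 hb0le hw0i
      have hstrict := hlt K hK hc z0 l o hl h0 h1 hP hg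
      exact absurd heq (ne_of_lt hstrict)

end Vale.Agent.Lib.P243.R3
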