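import Mathlib
import Vale.Agent.Lib.P243.R3.Defs
import Vale.Agent.Lib.P243.R3.Defs4

/-!
# P243 R3, pool job J15 (helper95, backup copy): the boundary of a convex body in E3 is not
covered by two planes and four lines

M4b_frontier_not_covered: for a convex body K, two nonzero functionals f1, f2, levels M1, M2
and four lines a i + t * d i there is a boundary point of K off both planes and off all four
lines. Proof: a direction e in the kernel of both functionals; the exit point of the ray
c + tau * e from an interior point c; the set of interior points c whose exit point is bad is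
contained in two planes and four planes-or-lines, a null set.
-/

open MeasureTheory Set

namespace Vale.Agent.Lib.P243.R3.H95

/-- a common kernel direction of two functionals on E3 -/
theorem M4b_exists_dir (f1 f2 : E3 →L[ℝ] ℝ) : ∃ e : E3, e ≠ 0 ∧ f1 e = 0 ∧ f2 e = 0 := by
  have hker : LinearMap.ker ((f1 : E3 →ₗ[ℝ] ℝ).prod (f2 : E3 →ₗ[ℝ] ℝ)) ≠ ⊥ :=
    LinearMap.ker_ne_bot_of_finrank_lt (by simp)
  obtain ⟨e, he, he0⟩ := (Submodule.ne_bot_iff _).1 hker
  have h := LinearMap.mem_ker.mp he
  rw [LinearMap.prod_apply] at h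
  refine ⟨e, he0, ?_, ?_⟩
  · simpa using congrArg Prod.fst h
  · simpa using congrArg Prod.snd h

/-- a set inside a translate of a proper subspace is a null set -/
theorem M4b_null_of_sub (S : Submodule ℝ E3) (hS : S ≠ ⊤) (p : E3) (A : Set E3)
    (hA : ∀ x ∈ A, x - p ∈ S) : volume A = 0 := by
  have hne : AffineSubspace.mk' p S ≠ ⊤ := by
    intro h
    apply hS
    have h2 := congrArg AffineSubspace.direction h
    rw [AffineSubspace.direction_mk', AffineSubspace.direction_top] at h2
    exact h2
  have h0 : volume (AffineSubspace.mk' p S : Set E3) = 0 :=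
    Measure.addHaar_affineSubspace volume (AffineSubspace.mk' p S) hne
  refine measure_mono_null ?_ h0
  intro x hx
  have : x ∈ AffineSubspace.mk' p S := by
    rw [AffineSubspace.mem_mk']
    exact hA x hx
  exact this

/-- a level set of a nonzero functional is a null set -/
theorem M4b_level_null (f : E3 →L[ℝ] ℝ) (hf : f ≠ 0) (M : ℝ) :
    volume {c : E3 | f c = M} = 0 := by
  rcases Set.eq_empty_or_nonempty {c : E3 | f c = M} with h | ⟨p, hp⟩
  · rw [h]
    exact measure_empty
  · have hp' : f p = M := hp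
    apply M4b_null_of_sub (LinearMap.ker (f : E3 →ₗ[ℝ] ℝ)) _ p
    · intro x hx
      have hx' : f x = M := hx
      rw [LinearMap.mem_ker]
      show f (x - p) = 0
      rw [map_sub, hx', hp', sub_self]
    · intro htop
      apply hf
      ext x
      have hx : x ∈ LinearMap.ker (f : E3 →ₗ[ℝ] ℝ) := by
        rw [htop]
        trivial
      have hx2 : f x = 0 := LinearMap.mem_ker.mp hx
      simpa using hx2

/-- the union of the lines through the points of a line in a fixed direction is a null set -/
theorem M4b_line_null (a d e : E3) :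
    volume {c : E3 | ∃ t τ : ℝ, c = a + t • d - τ • e} = 0 := by
  apply M4b_null_of_sub (Submodule.span ℝ ({d, e} : Set E3)) _ a
  · rintro x ⟨t, τ, rfl⟩
    have h : a + t • d - τ • e - a = t • d + (-τ) • e := by
      rw [neg_smul]
      abel
    rw [h]
    exact Submodule.add_mem _
      (Submodule.smul_mem _ _ (Submodule.subset_span (by simp)))
      (Submodule.smul_mem _ _ (Submodule.subset_span (by simp)))
  · intro htop
    classical
    have h1 : Module.finrank ℝ (Submodule.span ℝ ({d, e} : Set E3)) ≤ 2 := by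
      have h2 := finrank_span_finset_le_card (R := ℝ) ({d, e} : Finset E3)
      have hc : ({d, e} : Finset E3).card ≤ 2 := Finset.card_le_two
      simp only [Finset.coe_insert, Finset.coe_singleton] at h2
      exact le_trans h2 hc
    rw [htop] at h1
    simp at h1

/-- the exit point of a ray from an interior point -/
theorem M4b_exit {K : Set E3} (hK : Body K) (e : E3) (he : e ≠ 0) (c : E3)
    (hc : c ∈ interior K) : ∃ τ : ℝ, 0 ≤ τ ∧ c + τ • e ∈ frontier K := by
  by_contra hno
  have hno' : ∀ τ : ℝ, 0 ≤ τ → c + τ • e ∉ frontier K := fun τ hτ h => hno ⟨τ, hτ, h⟩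
  have hfr : frontier K = K \ interior K := hK.compact.isClosed.frontier_eq
  have hcont : Continuous fun τ : ℝ => c + τ • e := by fun_prop
  have hR : IsPreconnected ((fun τ : ℝ => c + τ • e) '' Set.Ici 0) :=
    isPreconnected_Ici.image _ hcont.continuousOn
  obtain ⟨r, hr⟩ := hK.compact.isBounded.subset_closedBall c
  have hepos : 0 < ‖e‖ := norm_pos_iff.mpr he
  have hτpos : 0 ≤ (|r| + 1) / ‖e‖ := by positivity
  have hfar : c + ((|r| + 1) / ‖e‖) • e ∉ K := by
    intro h
    have h1 := hr h
    rw [Metric.mem_closedBall, dist_eq_norm, add_sub_cancel_left, norm_smul, Real.norm_eq_abs,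
      abs_of_nonneg hτpos, div_mul_cancel₀ _ hepos.ne'] at h1
    have := le_abs_self r
    linarith
  have hsub : (fun τ : ℝ => c + τ • e) '' Set.Ici 0 ⊆ interior K ∪ Kᶜ := by
    rintro y ⟨τ, hτ, rfl⟩
    by_cases hy : c + τ • e ∈ K
    · left
      by_contra hyi
      exact hno' τ hτ (by rw [hfr]; exact ⟨hy, hyi⟩)
    · right
      exact hy
  obtain ⟨y, -, hy2, hy3⟩ := hR (interior K) Kᶜ isOpen_interior
    hK.compact.isClosed.isOpen_compl hsub
    ⟨c, ⟨0, Set.mem_Ici.mpr le_rfl, by simp⟩, hc⟩
    ⟨_, ⟨(|r| + 1) / ‖e‖, Set.mem_Ici.mpr hτpos, rfl⟩, hfar⟩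
  exact hy3 (interior_subset hy2)

/-- J15. The boundary of a convex body is not covered by two planes and four lines. -/
theorem M4b_frontier_not_covered {K : Set E3} (hK : Body K) (f1 f2 : E3 →L[ℝ] ℝ)
    (hf1 : f1 ≠ 0) (hf2 : f2 ≠ 0) (M1 M2 : ℝ) (a d : Fin 4 → E3) :
    ∃ x ∈ frontier K, f1 x ≠ M1 ∧ f2 x ≠ M2 ∧ ∀ i, ∀ t : ℝ, x ≠ a i + t • d i := by
  obtain ⟨e, he0, he1, he2⟩ := M4b_exists_dir f1 f2
  have hB1 : volume {c : E3 | f1 c = M1} = 0 := M4b_level_null f1 hf1 M1
  have hB2 : volume {c : E3 | f2 c = M2} = 0 := M4b_level_null f2 hf2 M2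
  have hB3 : ∀ i, volume {c : E3 | ∃ t τ : ℝ, c = a i + t • d i - τ • e} = 0 :=
    fun i => M4b_line_null (a i) (d i) e
  have hB : volume (({c : E3 | f1 c = M1} ∪ {c : E3 | f2 c = M2}) ∪
      ⋃ i, {c : E3 | ∃ t τ : ℝ, c = a i + t • d i - τ • e}) = 0 :=
    measure_union_null (measure_union_null hB1 hB2) (measure_iUnion_null hB3)
  have hpos : 0 < volume (interior K) := isOpen_interior.measure_pos volume hK.int
  obtain ⟨c, hcint, hcB⟩ : ∃ c ∈ interior K, c ∉ (({c : E3 | f1 c = M1} ∪ {c : E3 | f2 c = M2}) ∪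
      ⋃ i, {c : E3 | ∃ t τ : ℝ, c = a i + t • d i - τ • e}) := by
    by_contra h
    have hsub : interior K ⊆ (({c : E3 | f1 c = M1} ∪ {c : E3 | f2 c = M2}) ∪
        ⋃ i, {c : E3 | ∃ t τ : ℝ, c = a i + t • d i - τ • e}) :=
      fun c hc => by_contra (fun hcB => h ⟨c, hc, hcB⟩)
    exact absurd (measure_mono_null hsub hB) hpos.ne'
  obtain ⟨τ, -, hτ⟩ := M4b_exit hK e he0 c hcint
  refine ⟨c + τ • e, hτ, ?_, ?_, ?_⟩
  · intro h
    apply hcB
    left
    left
    show f1 c = M1
    rw [map_add, map_smul, he1, smul_zero, add_zero] at h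
    exact h
  · intro h
    apply hcB
    left
    right
    show f2 c = M2
    rw [map_add, map_smul, he2, smul_zero, add_zero] at h
    exact h
  · intro i t h
    apply hcB
    right
    rw [Set.mem_iUnion]
    refine ⟨i, t, τ, ?_⟩
    rw [← h, add_sub_cancel_right]

end Vale.Agent.Lib.P243.R3.H95
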